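import Mathlib

/-!
Seymour's second neighbourhood conjecture, unweighted, from scratch.
Proof: helper294's arc-minimality inequality (G) for all sets, and the comparison of
two minimum cuts on `V × V` (helper787's form of the gap inequality).
-/

namespace Vale.Agent.P038.H6

open Finset

variable {V : Type*} [Fintype V] [DecidableEq V]

/-- union of the sets `N y`, `y ∈ S` -/
def NN (N : V → Finset V) (S : Finset V) : Finset V := S.biUnion N

/-- number of elements of `NN N S` outside `S` -/
def c (N : V → Finset V) (S : Finset V) : ℕ := (NN N S \ S).card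

structure Ori (N : V → Finset V) : Prop where
  rf : ∀ a, a ∈ N a
  an : ∀ a b, b ∈ N a → a ∈ N b → a = b

omit [Fintype V] in
lemma mem_NN {N : V → Finset V} {S : Finset V} {x : V} :
    x ∈ NN N S ↔ ∃ y ∈ S, x ∈ N y := by
  simp [NN]

omit [Fintype V] in
lemma sub_NN {N : V → Finset V} (h : Ori N) (S : Finset V) : S ⊆ NN N S :=
  fun x hx => mem_NN.2 ⟨x, hx, h.rf x⟩

omit [Fintype V] in
lemma NN_mono {N : V → Finset V} {S T : Finset V} (h : S ⊆ T) : NN N S ⊆ NN N T := by
  intro x hx
  obtain ⟨y, hy, hxy⟩ := mem_NN.1 hx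
  exact mem_NN.2 ⟨y, h hy, hxy⟩

omit [Fintype V] in
lemma NN_union {N : V → Finset V} (S T : Finset V) : NN N (S ∪ T) = NN N S ∪ NN N T := by
  ext x
  simp only [mem_NN, mem_union]
  constructor
  · rintro ⟨y, hy | hy, hxy⟩
    · exact Or.inl ⟨y, hy, hxy⟩
    · exact Or.inr ⟨y, hy, hxy⟩
  · rintro (⟨y, hy, hxy⟩ | ⟨y, hy, hxy⟩)
    · exact ⟨y, Or.inl hy, hxy⟩
    · exact ⟨y, Or.inr hy, hxy⟩

omit [Fintype V] in
lemma c_add {N : V → Finset V} (h : Ori N) (S : Finset V) :
    c N S + S.card = (NN N S).card := by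
  unfold c
  exact card_sdiff_add_card_eq_card (sub_NN h S)

omit [Fintype V] in
lemma c_sub {N : V → Finset V} (h : Ori N) (S T : Finset V) :
    c N (S ∪ T) + c N (S ∩ T) ≤ c N S + c N T := by
  have h1 := c_add h (S ∪ T)
  have h2 := c_add h (S ∩ T)
  have h3 := c_add h S
  have h4 := c_add h T
  have h5 : (S ∪ T).card + (S ∩ T).card = S.card + T.card := card_union_add_card_inter S T
  have h6 : (NN N S ∪ NN N T).card + (NN N S ∩ NN N T).card
      = (NN N S).card + (NN N T).card := card_union_add_card_inter _ _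
  have h7 : (NN N (S ∩ T)).card ≤ (NN N S ∩ NN N T).card := by
    apply card_le_card
    exact subset_inter (NN_mono inter_subset_left) (NN_mono inter_subset_right)
  rw [NN_union] at h1
  omega

/-- the smallest value of `c` between `P ∪ (W ∩ Q)` and `Q` -/
noncomputable def kk (N : V → Finset V) (P Q W : Finset V) : ℕ :=
  sInf {n | ∃ Y : Finset V, P ∪ (W ∩ Q) ⊆ Y ∧ Y ⊆ Q ∧ c N Y = n}

omit [Fintype V] in
lemma kk_le {N : V → Finset V} {P Q W Y : Finset V} (h1 : P ∪ (W ∩ Q) ⊆ Y) (h2 : Y ⊆ Q) :
    kk N P Q W ≤ c N Y := Nat.sInf_le ⟨Y, h1, h2, rfl⟩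

omit [Fintype V] in
lemma kk_mem (N : V → Finset V) {P Q : Finset V} (W : Finset V) (h : P ⊆ Q) :
    ∃ Y : Finset V, P ∪ (W ∩ Q) ⊆ Y ∧ Y ⊆ Q ∧ c N Y = kk N P Q W := by
  have := Nat.sInf_mem (s := {n | ∃ Y : Finset V, P ∪ (W ∩ Q) ⊆ Y ∧ Y ⊆ Q ∧ c N Y = n})
    ⟨c N Q, Q, union_subset h inter_subset_right, Subset.rfl, rfl⟩
  exact this

omit [Fintype V] in
lemma kk_mono (N : V → Finset V) {P Q W W' : Finset V} (h : P ⊆ Q) (hW : W ⊆ W') :
    kk N P Q W ≤ kk N P Q W' := by
  obtain ⟨Y, h1, h2, h3⟩ := kk_mem N W' h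
  rw [← h3]
  refine kk_le (Subset.trans ?_ h1) h2
  exact union_subset_union Subset.rfl (inter_subset_inter hW Subset.rfl)

/-- meet of the rows over the closed in-neighbourhood -/
def mt (N B : V → Finset V) (z : V) : Finset V :=
  univ.filter (fun x => ∀ a, z ∈ N a → x ∈ B a)

lemma mem_mt {N B : V → Finset V} {z x : V} : x ∈ mt N B z ↔ ∀ a, z ∈ N a → x ∈ B a := by
  simp [mt]

omit [DecidableEq V] in
lemma layer (α γ : V → ℕ)
    (h : ∀ t : ℕ, (univ.filter (fun a => t < α a)).card ≤ (univ.filter (fun z => t < γ z)).card) :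
    ∑ a, α a ≤ ∑ z, γ z := by
  set T : ℕ := (∑ a, α a) + ∑ z, γ z with hT
  have key : ∀ f : V → ℕ, (∀ a, f a ≤ T) →
      ∑ a, f a = ∑ t ∈ range T, (univ.filter (fun a => t < f a)).card := by
    intro f hf
    simp only [card_filter]
    rw [sum_comm]
    refine sum_congr rfl (fun a _ => ?_)
    rw [← card_filter]
    have : (range T).filter (fun t => t < f a) = range (f a) := by
      ext t
      simp only [mem_filter, mem_range]
      constructor
      · exact fun h => h.2
      · exact fun h => ⟨lt_of_lt_of_le h (hf a), h⟩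
    rw [this, card_range]
  have ha : ∀ a, α a ≤ T := fun a => by
    have := single_le_sum (f := α) (fun i _ => Nat.zero_le _) (mem_univ a)
    omega
  have hg : ∀ a, γ a ≤ T := fun a => by
    have := single_le_sum (f := γ) (fun i _ => Nat.zero_le _) (mem_univ a)
    omega
  rw [key α ha, key γ hg]
  exact sum_le_sum (fun t _ => h t)

lemma mt_sub {N B U : V → Finset V} (hBU : ∀ a, B a ⊆ U a) (z : V) :
    mt N B z ⊆ mt N U z := by
  intro x hx
  rw [mem_mt] at hx ⊢
  exact fun a ha => hBU a (hx a ha)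

lemma c_meet {N : V → Finset V} (hN : Ori N) {B U : V → Finset V} (hBU : ∀ a, B a ⊆ U a)
    (R : ∀ a Y, B a ⊆ Y → Y ⊆ U a → c N (B a) ≤ c N Y)
    (z : V) (Y : Finset V) (h1 : mt N B z ⊆ Y) (h2 : Y ⊆ mt N U z) :
    c N (mt N B z) ≤ c N Y := by
  have step : ∀ T : Finset V, (∀ a ∈ T, z ∈ N a) →
      c N (Y.filter (fun x => ∀ a ∈ T, x ∈ B a)) ≤ c N Y := by
    intro T
    induction T using Finset.induction_on with
    | empty => intro _; simp
    | insert a T ha ih =>
      intro hT
      have ih' := ih (fun b hb => hT b (mem_insert_of_mem hb))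
      set Y' := Y.filter (fun x => ∀ a ∈ T, x ∈ B a) with hY'
      have e : Y.filter (fun x => ∀ b ∈ insert a T, x ∈ B b) = Y' ∩ B a := by
        ext x
        simp only [hY', mem_filter, mem_inter, mem_insert, forall_eq_or_imp]
        tauto
      rw [e]
      have hs := c_sub hN Y' (B a)
      have hU : Y' ∪ B a ⊆ U a := by
        intro x hx
        rcases mem_union.1 hx with hx | hx
        · have : x ∈ mt N U z := h2 (filter_subset _ _ hx)
          exact mem_mt.1 this a (hT a (mem_insert_self _ _))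
        · exact hBU a hx
      have hr := R a (Y' ∪ B a) subset_union_right hU
      omega
  have := step (univ.filter (fun a => z ∈ N a)) (fun a ha => (mem_filter.1 ha).2)
  have e : Y.filter (fun x => ∀ a ∈ univ.filter (fun a => z ∈ N a), x ∈ B a) = mt N B z := by
    ext x
    simp only [mem_filter, mem_univ, true_and, mem_mt]
    constructor
    · exact fun h => h.2
    · exact fun h => ⟨h1 (mem_mt.2 h), h⟩
  rw [e] at this
  exact this

/-- monotonicity (2) -/
lemma kk_cross {N : V → Finset V} (hN : Ori N) {B U : V → Finset V} (hBU : ∀ a, B a ⊆ U a)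
    (W : Finset V) (b z a : V) (hz : z ∈ N a) (hb : b ∈ mt N U z) :
    kk N (B a) (U a) (insert b W) + kk N (mt N B z) (mt N U z) W
      ≤ kk N (B a) (U a) W + kk N (mt N B z) (mt N U z) (insert b W) := by
  obtain ⟨Y, h1, h2, h3⟩ := kk_mem N (insert b W) (mt_sub (N := N) hBU z)
  obtain ⟨Y', h1', h2', h3'⟩ := kk_mem N W (hBU a)
  have hMU : mt N U z ⊆ U a := fun x hx => mem_mt.1 hx a hz
  have hmB : mt N B z ⊆ B a := fun x hx => mem_mt.1 hx a hz
  have k1 : kk N (B a) (U a) (insert b W) ≤ c N (Y ∪ Y') := by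
    apply kk_le
    · intro x hx
      rcases mem_union.1 hx with hx | hx
      · exact mem_union_right _ (h1' (mem_union_left _ hx))
      · obtain ⟨hx1, hx2⟩ := mem_inter.1 hx
        rcases mem_insert.1 hx1 with rfl | hx1
        · exact mem_union_left _
            (h1 (mem_union_right _ (mem_inter.2 ⟨mem_insert_self _ _, hb⟩)))
        · exact mem_union_right _ (h1' (mem_union_right _ (mem_inter.2 ⟨hx1, hx2⟩)))
    · exact union_subset (h2.trans hMU) h2'
  have k2 : kk N (mt N B z) (mt N U z) W ≤ c N (Y ∩ Y') := by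
    apply kk_le
    · intro x hx
      rcases mem_union.1 hx with hx | hx
      · exact mem_inter.2 ⟨h1 (mem_union_left _ hx), h1' (mem_union_left _ (hmB hx))⟩
      · obtain ⟨hx1, hx2⟩ := mem_inter.1 hx
        exact mem_inter.2 ⟨h1 (mem_union_right _ (mem_inter.2 ⟨mem_insert_of_mem hx1, hx2⟩)),
          h1' (mem_union_right _ (mem_inter.2 ⟨hx1, hMU hx2⟩))⟩
    · exact inter_subset_left.trans h2
  have := c_sub hN Y Y'
  omega

theorem key {N : V → Finset V} (hN : Ori N) {B U : V → Finset V} (hBU : ∀ a, B a ⊆ U a)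
    (R : ∀ a Y, B a ⊆ Y → Y ⊆ U a → c N (B a) ≤ c N Y)
    (C : ∀ b (S : Finset V), (∀ a ∈ S, b ∈ U a ∧ b ∉ B a) →
      S.card ≤ ((NN N S).filter (fun z => b ∈ mt N U z)).card) :
    ∑ a, c N (U a) + ∑ z, c N (mt N B z) ≤ ∑ z, c N (mt N U z) + ∑ a, c N (B a) := by
  have main : ∀ W : Finset V,
      ∑ a, kk N (B a) (U a) W + ∑ z, kk N (mt N B z) (mt N U z) ∅
        ≤ ∑ z, kk N (mt N B z) (mt N U z) W + ∑ a, kk N (B a) (U a) ∅ := by
    intro W
    induction W using Finset.induction_on with
    | empty => rw [add_comm]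
    | insert b W hb ih =>
      have hf : ∀ a, kk N (B a) (U a) W ≤ kk N (B a) (U a) (insert b W) :=
        fun a => kk_mono N (hBU a) (subset_insert _ _)
      have hg : ∀ z, kk N (mt N B z) (mt N U z) W ≤ kk N (mt N B z) (mt N U z) (insert b W) :=
        fun z => kk_mono N (mt_sub hBU z) (subset_insert _ _)
      have hl : ∑ a, (kk N (B a) (U a) (insert b W) - kk N (B a) (U a) W)
          ≤ ∑ z, (kk N (mt N B z) (mt N U z) (insert b W) - kk N (mt N B z) (mt N U z) W) := by
        apply layer
        intro t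
        refine le_trans (C b _ ?_) (card_le_card ?_)
        · intro a ha
          have ha' := (mem_filter.1 ha).2
          by_contra hcon
          have heq : kk N (B a) (U a) (insert b W) = kk N (B a) (U a) W := by
            have : B a ∪ (insert b W ∩ U a) = B a ∪ (W ∩ U a) := by
              ext x
              simp only [mem_union, mem_inter, mem_insert]
              constructor
              · rintro (h | ⟨rfl | h, h'⟩)
                · exact Or.inl h
                · by_cases hx : x ∈ B a
                  · exact Or.inl hx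
                  · exact absurd ⟨h', hx⟩ hcon
                · exact Or.inr ⟨h, h'⟩
              · rintro (h | ⟨h, h'⟩)
                · exact Or.inl h
                · exact Or.inr ⟨Or.inr h, h'⟩
            unfold kk
            rw [this]
          omega
        · intro z hz
          obtain ⟨hz1, hz2⟩ := mem_filter.1 hz
          obtain ⟨a, ha, hza⟩ := mem_NN.1 hz1
          have ha' := (mem_filter.1 ha).2
          have := kk_cross hN hBU W b z a hza hz2
          have h1 := hf a
          have h2 := hg z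
          refine mem_filter.2 ⟨mem_univ _, ?_⟩
          omega
      have e1 : ∑ a, kk N (B a) (U a) (insert b W)
          = ∑ a, (kk N (B a) (U a) (insert b W) - kk N (B a) (U a) W)
            + ∑ a, kk N (B a) (U a) W := by
        rw [← sum_add_distrib]
        exact sum_congr rfl (fun a _ => by have := hf a; omega)
      have e2 : ∑ z, kk N (mt N B z) (mt N U z) (insert b W)
          = ∑ z, (kk N (mt N B z) (mt N U z) (insert b W) - kk N (mt N B z) (mt N U z) W)
            + ∑ z, kk N (mt N B z) (mt N U z) W := by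
        rw [← sum_add_distrib]
        exact sum_congr rfl (fun a _ => by have := hg a; omega)
      omega
  have m := main univ
  have a1 : ∑ a, c N (U a) ≤ ∑ a, kk N (B a) (U a) univ := by
    refine sum_le_sum (fun a _ => ?_)
    obtain ⟨Y, h1, h2, h3⟩ := kk_mem N univ (hBU a)
    rw [← h3]
    have : Y = U a := by
      apply Subset.antisymm h2
      intro x hx
      exact h1 (mem_union_right _ (mem_inter.2 ⟨mem_univ _, hx⟩))
    rw [this]
  have a2 : ∑ z, c N (mt N B z) ≤ ∑ z, kk N (mt N B z) (mt N U z) ∅ := by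
    refine sum_le_sum (fun z _ => ?_)
    obtain ⟨Y, h1, h2, h3⟩ := kk_mem N ∅ (mt_sub (N := N) hBU z)
    rw [← h3]
    exact c_meet hN hBU R z Y (subset_union_left.trans h1) h2
  have a3 : ∑ z, kk N (mt N B z) (mt N U z) univ ≤ ∑ z, c N (mt N U z) := by
    refine sum_le_sum (fun z _ => ?_)
    exact kk_le (union_subset (mt_sub hBU z) inter_subset_right) Subset.rfl
  have a4 : ∑ a, kk N (B a) (U a) ∅ ≤ ∑ a, c N (B a) := by
    refine sum_le_sum (fun a _ => ?_)
    exact kk_le (union_subset Subset.rfl (by simp)) (hBU a)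
  omega

end Vale.Agent.P038.H6
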