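import Vale.Agent.P038.H6.Seymour

/-!
Part 2: outer minimiser, candidate, (G) for arc-minimal counterexamples, contradiction.
-/

namespace Vale.Agent.P038.H6

open Finset

variable {V : Type*} [Fintype V] [DecidableEq V]

def Valid (N B C : V → Finset V) : Prop :=
  (∀ a, N a ⊆ B a) ∧ (∀ a, N a ⊆ C a) ∧ ∀ a x, x ∈ B a → a ∈ C x → x = a

def cost (N B C : V → Finset V) : ℕ := ∑ a, c N (B a) + ∑ b, c N (C b)

lemma sum_update (N B : V → Finset V) (a : V) (Y : Finset V) :
    ∑ x, c N (Function.update B a Y x) + c N (B a) = ∑ x, c N (B x) + c N Y := by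
  have h1 : ∑ x, c N (Function.update B a Y x) = c N Y + ∑ x ∈ univ.erase a, c N (B x) := by
    rw [← add_sum_erase _ _ (mem_univ a)]
    congr 1
    · rw [Function.update_self]
    · apply sum_congr rfl
      intro x hx
      rw [Function.update_of_ne (ne_of_mem_erase hx)]
  have h2 : ∑ x, c N (B x) = c N (B a) + ∑ x ∈ univ.erase a, c N (B x) :=
    (add_sum_erase _ _ (mem_univ a)).symm
  omega

lemma exists_min {N : V → Finset V} (hN : Ori N) :
    ∃ B C, Valid N B C ∧ ∀ B' C', Valid N B' C' → cost N B C ≤ cost N B' C' := by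
  have h := Nat.sInf_mem (s := {n | ∃ B C, Valid N B C ∧ cost N B C = n})
    ⟨_, N, N, ⟨fun a => Subset.rfl, fun a => Subset.rfl,
      fun a x h1 h2 => (hN.an a x h1 h2).symm⟩, rfl⟩
  obtain ⟨B, C, h1, h2⟩ := h
  exact ⟨B, C, h1, fun B' C' h' => h2 ▸ Nat.sInf_le ⟨B', C', h', rfl⟩⟩

def UU (C : V → Finset V) (a : V) : Finset V := univ.filter (fun x => a ∉ C x ∨ x = a)

lemma mem_UU {C : V → Finset V} {a x : V} : x ∈ UU C a ↔ (a ∉ C x ∨ x = a) := by
  simp [UU]

def YY (N C : V → Finset V) (x : V) : Finset V :=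
  univ.filter (fun z => z = x ∨ x ∉ NN N (UU C z))

lemma mem_YY {N C : V → Finset V} {x z : V} : z ∈ YY N C x ↔ (z = x ∨ x ∉ NN N (UU C z)) := by
  simp [YY]

section Min

variable {N B C : V → Finset V}

lemma BU (hv : Valid N B C) (a : V) : B a ⊆ UU C a := by
  intro x hx
  rw [mem_UU]
  by_cases h : a ∈ C x
  · exact Or.inr (hv.2.2 a x hx h)
  · exact Or.inl h

lemma rowOpt (hv : Valid N B C)
    (hm : ∀ B' C', Valid N B' C' → cost N B C ≤ cost N B' C')
    (a : V) (Y : Finset V) (h1 : B a ⊆ Y) (h2 : Y ⊆ UU C a) : c N (B a) ≤ c N Y := by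
  have hv' : Valid N (Function.update B a Y) C := by
    refine ⟨fun b => ?_, hv.2.1, fun b x hx hb => ?_⟩
    · by_cases h : b = a
      · subst h
        rw [Function.update_self]
        exact (hv.1 b).trans h1
      · rw [Function.update_of_ne h]
        exact hv.1 b
    · by_cases h : b = a
      · subst h
        rw [Function.update_self] at hx
        rcases mem_UU.1 (h2 hx) with h | h
        · exact absurd hb h
        · exact h
      · rw [Function.update_of_ne h] at hx
        exact hv.2.2 b x hx hb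
  have := hm _ _ hv'
  have h3 := sum_update N B a Y
  unfold cost at this
  omega

lemma colOpt (hN : Ori N) (hv : Valid N B C)
    (hm : ∀ B' C', Valid N B' C' → cost N B C ≤ cost N B' C')
    (b : V) (S : Finset V) (hS : ∀ a ∈ S, b ∈ UU C a ∧ b ∉ B a) :
    S.card ≤ ((NN N S).filter (fun z => b ∈ mt N (UU C) z)).card := by
  have hv' : Valid N B (Function.update C b (C b ∪ S)) := by
    refine ⟨hv.1, fun a => ?_, fun a x hx ha => ?_⟩
    · by_cases h : a = b
      · subst h
        rw [Function.update_self]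
        exact (hv.2.1 a).trans subset_union_left
      · rw [Function.update_of_ne h]
        exact hv.2.1 a
    · by_cases h : x = b
      · subst h
        rw [Function.update_self] at ha
        rcases mem_union.1 ha with h | h
        · exact hv.2.2 a x hx h
        · exact absurd hx (hS a h).2
      · rw [Function.update_of_ne h] at ha
        exact hv.2.2 a x hx ha
  have h0 := hm _ _ hv'
  have h3 := sum_update N C b (C b ∪ S)
  unfold cost at h0
  have h4 : c N (C b) ≤ c N (C b ∪ S) := by omega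
  have h5 := c_add hN (C b)
  have h6 := c_add hN (C b ∪ S)
  rw [NN_union] at h6
  have hd : Disjoint (C b) S := by
    rw [disjoint_left]
    intro a ha haS
    obtain ⟨k1, k2⟩ := hS a haS
    rcases mem_UU.1 k1 with h | h
    · exact h ha
    · subst h
      exact k2 (hv.1 b (hN.rf b))
  have h7 : (C b ∪ S).card = (C b).card + S.card := card_union_of_disjoint hd
  have h8 : (NN N (C b) ∪ NN N S).card = (NN N (C b)).card + (NN N S \ NN N (C b)).card := by
    rw [← card_union_of_disjoint (disjoint_sdiff), union_sdiff_self_eq_union]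
  have h9 : (NN N S \ NN N (C b)).card ≤
      ((NN N S).filter (fun z => b ∈ mt N (UU C) z)).card := by
    apply card_le_card
    intro z hz
    obtain ⟨z1, z2⟩ := mem_sdiff.1 hz
    refine mem_filter.2 ⟨z1, mem_mt.2 (fun a ha => mem_UU.2 (Or.inl (fun hc => ?_)))⟩
    exact z2 (mem_NN.2 ⟨a, hc, ha⟩)
  omega

omit [DecidableEq V] in
lemma dbl (P : V → V → Prop) [∀ x z, Decidable (P x z)] :
    ∑ x, (univ.filter (fun z => P x z)).card = ∑ z, (univ.filter (fun x => P x z)).card := by
  simp only [card_filter]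
  exact sum_comm

lemma inner_le (hN : Ori N) (hv : Valid N B C)
    (hm : ∀ B' C', Valid N B' C' → cost N B C ≤ cost N B' C') :
    ∑ z, c N (mt N B z) + ∑ x, c N (YY N C x) ≤ cost N B C := by
  have hk := key hN (B := B) (U := UU C) (BU hv) (fun a Y h1 h2 => rowOpt hv hm a Y h1 h2)
    (fun b S hS => colOpt hN hv hm b S hS)
  -- counting
  have n1 : ∑ x, (YY N C x).card + ∑ z, (NN N (UU C z)).card = ∑ _z : V, (Fintype.card V + 1) := by
    have : ∑ x, (YY N C x).card
        = ∑ z, (univ.filter (fun x => z = x ∨ x ∉ NN N (UU C z))).card :=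
      dbl (fun x z => z = x ∨ x ∉ NN N (UU C z))
    rw [this, ← sum_add_distrib]
    refine sum_congr rfl (fun z _ => ?_)
    have hz : z ∈ NN N (UU C z) := mem_NN.2 ⟨z, mem_UU.2 (Or.inr rfl), hN.rf z⟩
    have e : univ.filter (fun x => z = x ∨ x ∉ NN N (UU C z))
        = insert z ((NN N (UU C z))ᶜ) := by
      ext x
      simp only [mem_filter, mem_univ, true_and, mem_insert, mem_compl]
      constructor
      · rintro (h | h)
        · exact Or.inl h.symm
        · exact Or.inr h
      · rintro (h | h)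
        · exact Or.inl h.symm
        · exact Or.inr h
    rw [e, card_insert_of_notMem (by simpa using hz), card_compl]
    have := card_le_univ (NN N (UU C z))
    omega
  have n2 : ∑ x, (NN N (YY N C x)).card + ∑ z, (NN N (mt N (UU C) z)).card
      ≤ ∑ _z : V, (Fintype.card V + 1) := by
    have : ∑ x, (NN N (YY N C x)).card
        = ∑ z, (univ.filter (fun x => z ∈ NN N (YY N C x))).card := by
      rw [← dbl (fun x z => z ∈ NN N (YY N C x))]
      exact sum_congr rfl (fun x _ => by rw [filter_mem_eq_inter, univ_inter])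
    rw [this, ← sum_add_distrib]
    refine sum_le_sum (fun z _ => ?_)
    rw [← card_union_add_card_inter]
    have h1 := card_le_univ
      (univ.filter (fun x => z ∈ NN N (YY N C x)) ∪ NN N (mt N (UU C) z))
    have h2 : (univ.filter (fun x => z ∈ NN N (YY N C x)) ∩ NN N (mt N (UU C) z)).card ≤ 1 := by
      have : univ.filter (fun x => z ∈ NN N (YY N C x)) ∩ NN N (mt N (UU C) z) ⊆ {z} := by
        intro x hx
        obtain ⟨hx1, hx2⟩ := mem_inter.1 hx
        obtain ⟨a, ha, hza⟩ := mem_NN.1 (mem_filter.1 hx1).2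
        obtain ⟨y, hy, hxy⟩ := mem_NN.1 hx2
        rw [mem_singleton]
        have hy1 := mem_mt.1 hy a hza
        rcases mem_YY.1 ha with h | h
        · subst h
          -- a = x
          rcases mem_UU.1 hy1 with h | h
          · exact absurd (hv.2.1 y hxy) h
          · subst h
            have hz1 := mem_mt.1 hy z (hN.rf z)
            rcases mem_UU.1 hz1 with h | h
            · exact absurd (hv.2.1 _ hza) h
            · exact h
        · exact absurd (mem_NN.2 ⟨y, hy1, hxy⟩) h
      exact (card_le_card this).trans (by simp)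
    omega
  have n3 : ∑ b, (C b).card + ∑ a, (UU C a).card ≤ ∑ _z : V, (Fintype.card V + 1) := by
    have : ∑ b, (C b).card = ∑ a, (univ.filter (fun x => a ∈ C x)).card := by
      rw [← dbl (fun x z => z ∈ C x)]
      exact sum_congr rfl (fun x _ => by rw [filter_mem_eq_inter, univ_inter])
    rw [this, ← sum_add_distrib]
    refine sum_le_sum (fun a _ => ?_)
    rw [← card_union_add_card_inter]
    have h1 := card_le_univ (univ.filter (fun x => a ∈ C x) ∪ UU C a)
    have h2 : (univ.filter (fun x => a ∈ C x) ∩ UU C a).card ≤ 1 := by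
      have : univ.filter (fun x => a ∈ C x) ∩ UU C a ⊆ {a} := by
        intro x hx
        obtain ⟨hx1, hx2⟩ := mem_inter.1 hx
        rw [mem_singleton]
        rcases mem_UU.1 hx2 with h | h
        · exact absurd (mem_filter.1 hx1).2 h
        · exact h
      exact (card_le_card this).trans (by simp)
    omega
  have n4 : ∑ _z : V, (Fintype.card V + 1)
      ≤ ∑ b, (NN N (C b)).card + ∑ z, (mt N (UU C) z).card := by
    have : ∑ b, (NN N (C b)).card = ∑ z, (univ.filter (fun x => z ∈ NN N (C x))).card := by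
      rw [← dbl (fun x z => z ∈ NN N (C x))]
      exact sum_congr rfl (fun x _ => by rw [filter_mem_eq_inter, univ_inter])
    rw [this, ← sum_add_distrib]
    refine sum_le_sum (fun z _ => ?_)
    rw [← card_union_add_card_inter]
    have h1 : univ.filter (fun x => z ∈ NN N (C x)) ∪ mt N (UU C) z = univ := by
      ext x
      simp only [mem_union, mem_filter, mem_univ, true_and, iff_true]
      by_cases h : z ∈ NN N (C x)
      · exact Or.inl h
      · refine Or.inr (mem_mt.2 (fun a ha => mem_UU.2 (Or.inl (fun hc => ?_))))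
        exact h (mem_NN.2 ⟨a, hc, ha⟩)
    have h2 : 1 ≤ (univ.filter (fun x => z ∈ NN N (C x)) ∩ mt N (UU C) z).card := by
      rw [Nat.succ_le_iff, card_pos]
      refine ⟨z, mem_inter.2 ⟨mem_filter.2 ⟨mem_univ _, ?_⟩, ?_⟩⟩
      · exact mem_NN.2 ⟨z, hv.2.1 z (hN.rf z), hN.rf z⟩
      · refine mem_mt.2 (fun a ha => mem_UU.2 ?_)
        by_cases h : a ∈ C z
        · exact Or.inr (hv.2.2 a z (hv.1 a ha) h)
        · exact Or.inl h
    rw [h1, card_univ]
    omega
  have s1 : ∑ x, c N (YY N C x) + ∑ x, (YY N C x).card = ∑ x, (NN N (YY N C x)).card := by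
    rw [← sum_add_distrib]; exact sum_congr rfl (fun x _ => c_add hN _)
  have s2 : ∑ x, c N (C x) + ∑ x, (C x).card = ∑ x, (NN N (C x)).card := by
    rw [← sum_add_distrib]; exact sum_congr rfl (fun x _ => c_add hN _)
  have s3 : ∑ x, c N (UU C x) + ∑ x, (UU C x).card = ∑ x, (NN N (UU C x)).card := by
    rw [← sum_add_distrib]; exact sum_congr rfl (fun x _ => c_add hN _)
  have s4 : ∑ x, c N (mt N (UU C) x) + ∑ x, (mt N (UU C) x).card
      = ∑ x, (NN N (mt N (UU C) x)).card := by
    rw [← sum_add_distrib]; exact sum_congr rfl (fun x _ => c_add hN _)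
  unfold cost
  omega

lemma valid_cand (hN : Ori N) (hv : Valid N B C) :
    Valid N (fun a => NN N (mt N B a)) (fun b => NN N (YY N C b)) := by
  refine ⟨fun a => ?_, fun b => ?_, fun a x hx ha => ?_⟩
  · have : a ∈ mt N B a := mem_mt.2 (fun a' h => hv.1 a' h)
    exact fun x hx => mem_NN.2 ⟨a, this, hx⟩
  · exact fun x hx => mem_NN.2 ⟨b, mem_YY.2 (Or.inl rfl), hx⟩
  · obtain ⟨y, hy, hxy⟩ := mem_NN.1 hx
    obtain ⟨z, hz, haz⟩ := mem_NN.1 ha
    have hyz := mem_mt.1 hy z haz
    rcases mem_YY.1 hz with h | h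
    · subst h
      -- z = x
      have h1 : y = z := hv.2.2 z y hyz (hv.2.1 y hxy)
      subst h1
      exact hv.2.2 a y (mem_mt.1 hy a (hN.rf a)) (hv.2.1 y haz)
    · exact absurd (mem_NN.2 ⟨y, BU hv z hyz, hxy⟩) h

end Min

theorem no_G [Nonempty V] {N : V → Finset V} (hN : Ori N)
    (G : ∀ S, NN N S ≠ S → c N (NN N S) < c N S) (out : ∀ a, ∃ x ∈ N a, x ≠ a) : False := by
  obtain ⟨B, C, hv, hm⟩ := exists_min hN
  have G1 : ∀ S, c N (NN N S) ≤ c N S := by
    intro S
    by_cases h : NN N S = S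
    · rw [h]
    · exact (G S h).le
  have h1 := inner_le hN hv hm
  have h2 := hm _ _ (valid_cand hN hv)
  have h3 : ∑ b, c N (NN N (YY N C b)) ≤ ∑ b, c N (YY N C b) := sum_le_sum (fun b _ => G1 _)
  have hex : ∃ a, NN N (mt N B a) ≠ mt N B a := by
    by_contra hcon
    push Not at hcon
    obtain ⟨S, hS, hmin⟩ := exists_min_image
      (univ.filter (fun S : Finset V => S.Nonempty ∧ NN N S = S)) card
      ⟨univ, by
        refine mem_filter.2 ⟨mem_univ _, univ_nonempty, ?_⟩
        exact Subset.antisymm (subset_univ _) (sub_NN hN _)⟩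
    obtain ⟨hS1, hS2⟩ := (mem_filter.1 hS).2
    have hsub : ∀ a ∈ S, S ⊆ mt N B a := by
      intro a ha
      have hT : NN N (mt N B a ∩ S) = mt N B a ∩ S := by
        apply Subset.antisymm
        · refine subset_inter ?_ ?_
          · have := NN_mono (N := N) (inter_subset_left (s₁ := mt N B a) (s₂ := S))
            rwa [hcon a] at this
          · have := NN_mono (N := N) (inter_subset_right (s₁ := mt N B a) (s₂ := S))
            rwa [hS2] at this
        · exact sub_NN hN _
      have hne : (mt N B a ∩ S).Nonempty :=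
        ⟨a, mem_inter.2 ⟨mem_mt.2 (fun a' h => hv.1 a' h), ha⟩⟩
      have hle := hmin (mt N B a ∩ S) (mem_filter.2 ⟨mem_univ _, hne, hT⟩)
      have heq : mt N B a ∩ S = S := eq_of_subset_of_card_le inter_subset_right hle
      rw [← heq]
      exact inter_subset_left
    obtain ⟨a, ha⟩ := hS1
    obtain ⟨x, hx, hxa⟩ := out a
    have hxS : x ∈ S := by
      rw [← hS2]
      exact mem_NN.2 ⟨a, ha, hx⟩
    have h4 : a ∈ B x := mem_mt.1 (hsub x hxS ha) x (hN.rf x)
    exact hxa (hv.2.2 x a h4 (hv.2.1 a hx)).symm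
  obtain ⟨a, ha⟩ := hex
  have h4 : ∑ b, c N (NN N (mt N B b)) < ∑ b, c N (mt N B b) :=
    sum_lt_sum (fun b _ => G1 _) ⟨a, mem_univ _, G _ ha⟩
  unfold cost at h2 h1
  dsimp only at h2
  omega

/-- counterexample in closed form -/
def CE (N : V → Finset V) : Prop := ∀ v, (NN N (N v)).card + 2 ≤ 2 * (N v).card

theorem G_of_min {N : V → Finset V} (hN : Ori N) (hce : CE N)
    (hmin : ∀ N' : V → Finset V, Ori N' → CE N' → ∑ v, (N v).card ≤ ∑ v, (N' v).card)
    (X : Finset V) (hX : NN N X ≠ X) : c N (NN N X) < c N X := by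
  by_contra hcon
  push Not at hcon
  set L := NN N X \ X with hL
  have hLne : L.Nonempty := by
    rw [hL, sdiff_nonempty]
    exact fun h => hX (Subset.antisymm h (sub_NN hN X))
  have hcX : c N X = L.card := rfl
  have hNL : (NN N L \ X).card = c N (NN N X) + L.card := by
    have e : NN N L \ X = (NN N (NN N X) \ NN N X) ∪ L := by
      ext y
      simp only [mem_sdiff, mem_union]
      constructor
      · rintro ⟨h1, h2⟩
        by_cases h : y ∈ NN N X
        · exact Or.inr (mem_sdiff.2 ⟨h, h2⟩)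
        · refine Or.inl ⟨?_, h⟩
          exact NN_mono sdiff_subset h1
      · rintro (⟨h1, h2⟩ | h)
        · obtain ⟨z, hz, hyz⟩ := mem_NN.1 h1
          have hzX : z ∉ X := fun h => h2 (mem_NN.2 ⟨z, h, hyz⟩)
          exact ⟨mem_NN.2 ⟨z, mem_sdiff.2 ⟨hz, hzX⟩, hyz⟩, fun h => h2 (sub_NN hN X h)⟩
        · exact ⟨sub_NN hN L h, (mem_sdiff.1 h).2⟩
    rw [e, card_union_of_disjoint]
    · rfl
    · rw [disjoint_left]
      intro y h1 h2
      exact (mem_sdiff.1 h1).2 (mem_sdiff.1 h2).1
  let d : Finset V → ℤ := fun T => ((NN N T \ X).card : ℤ) - 2 * T.card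
  obtain ⟨T, hT, hTmin⟩ := exists_min_image L.ssubsets d
    ⟨∅, mem_ssubsets.2 (Finset.empty_ssubset.2 hLne)⟩
  rw [mem_ssubsets] at hT
  have hd0 : d ∅ = 0 := by simp [d, NN]
  have hdL : 0 ≤ d L := by
    simp only [d]
    rw [hNL]
    omega
  have hTall : ∀ T' ⊆ L, d T ≤ d T' := by
    intro T' hT'
    rcases hT'.eq_or_ssubset with h | h
    · subst h
      have := hTmin ∅ (mem_ssubsets.2 (Finset.empty_ssubset.2 hLne))
      rw [hd0] at this
      exact this.trans hdL
    · exact hTmin T' (mem_ssubsets.2 h)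
  have hLX : ∀ y ∈ L, y ∉ X := fun y hy => (mem_sdiff.1 hy).2
  -- the new graph
  let N' : V → Finset V := fun v => if v ∈ X then N v \ (L \ T) else N v
  have hN'X : ∀ v ∈ X, N' v = N v \ (L \ T) := fun v hv => if_pos hv
  have hN'n : ∀ v, v ∉ X → N' v = N v := fun v hv => if_neg hv
  have hsub : ∀ v, N' v ⊆ N v := by
    intro v
    by_cases h : v ∈ X
    · rw [hN'X v h]; exact sdiff_subset
    · rw [hN'n v h]
  have hori : Ori N' := by
    refine ⟨fun a => ?_, fun a b h1 h2 => hN.an a b (hsub a h1) (hsub b h2)⟩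
    by_cases h : a ∈ X
    · rw [hN'X a h]
      exact mem_sdiff.2 ⟨hN.rf a, fun h' => hLX a (mem_sdiff.1 h').1 h⟩
    · rw [hN'n a h]
      exact hN.rf a
  have hsize : ∑ v, (N' v).card < ∑ v, (N v).card := by
    obtain ⟨l, hl, hlT⟩ := exists_of_ssubset hT
    obtain ⟨x, hx, hlx⟩ := mem_NN.1 (mem_sdiff.1 hl).1
    refine sum_lt_sum (fun v _ => card_le_card (hsub v)) ⟨x, mem_univ _, ?_⟩
    apply card_lt_card
    rw [hN'X x hx, ssubset_iff_of_subset sdiff_subset]
    exact ⟨l, hlx, fun h => (mem_sdiff.1 h).2 (mem_sdiff.2 ⟨hl, hlT⟩)⟩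
  have hce' : CE N' := by
    intro v
    by_cases hv : v ∈ X
    · -- row in X
      set D := N v ∩ (L \ T) with hD
      set E := NN N D \ (NN N T ∪ X) with hE
      have hDL : D ⊆ L := fun y hy => (mem_sdiff.1 (mem_inter.1 hy).2).1
      have hDT : Disjoint T D := by
        rw [disjoint_left]
        intro y h1 h2
        exact (mem_sdiff.1 (mem_inter.1 h2).2).2 h1
      have e1 : N' v = N v \ D := by
        rw [hN'X v hv, hD, sdiff_inter_self_left]
      have c1 : (N' v).card + D.card = (N v).card := by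
        rw [e1]
        exact card_sdiff_add_card_eq_card inter_subset_left
      have hEsub : E ⊆ NN N (N v) :=
        fun y hy => NN_mono inter_subset_left (mem_sdiff.1 hy).1
      have hin : ∀ y ∈ N v, y ∉ D → y ∈ X ∪ T := by
        intro y hy hyD
        by_contra h
        rw [mem_union, not_or] at h
        apply hyD
        refine mem_inter.2 ⟨hy, mem_sdiff.2 ⟨mem_sdiff.2 ⟨mem_NN.2 ⟨v, hv, hy⟩, h.1⟩, h.2⟩⟩
      have hNN : NN N' (N' v) ⊆ NN N (N v) \ E := by
        intro z hz
        obtain ⟨y, hy, hzy⟩ := mem_NN.1 hz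
        refine mem_sdiff.2 ⟨mem_NN.2 ⟨y, hsub v hy, hsub y hzy⟩, fun hzE => ?_⟩
        have hz1 := (mem_sdiff.1 hzE).2
        rw [mem_union, not_or] at hz1
        rw [e1] at hy
        obtain ⟨hy1, hy2⟩ := mem_sdiff.1 hy
        rcases mem_union.1 (hin y hy1 hy2) with h | h
        · -- y ∈ X
          rw [hN'X y h] at hzy
          obtain ⟨k1, k2⟩ := mem_sdiff.1 hzy
          apply k2
          refine mem_sdiff.2 ⟨mem_sdiff.2 ⟨mem_NN.2 ⟨y, h, k1⟩, hz1.2⟩, fun h3 => ?_⟩
          exact hz1.1 (sub_NN hN T h3)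
        · exact hz1.1 (mem_NN.2 ⟨y, h, hsub y hzy⟩)
      have c2 : (NN N (N v) \ E).card + E.card = (NN N (N v)).card :=
        card_sdiff_add_card_eq_card hEsub
      have c3 := card_le_card hNN
      have hdd := hTall (T ∪ D) (union_subset hT.subset hDL)
      have c4 : (T ∪ D).card = T.card + D.card := card_union_of_disjoint hDT
      have c5 : (NN N (T ∪ D) \ X).card = (NN N T \ X).card + E.card := by
        have : NN N (T ∪ D) \ X = (NN N T \ X) ∪ E := by
          ext y
          rw [NN_union]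
          simp only [hE, mem_sdiff, mem_union]
          tauto
        rw [this, card_union_of_disjoint]
        rw [disjoint_left]
        intro y h1 h2
        exact (mem_sdiff.1 h2).2 (mem_union_left _ (mem_sdiff.1 h1).1)
      have c6 := hce v
      simp only [d] at hdd
      rw [c4, c5] at hdd
      push_cast at hdd
      omega
    · have h1 : NN N' (N' v) ⊆ NN N (N v) := by
        intro z hz
        obtain ⟨y, hy, hzy⟩ := mem_NN.1 hz
        exact mem_NN.2 ⟨y, hsub v hy, hsub y hzy⟩
      have h2 := card_le_card h1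
      have h3 := hce v
      rw [hN'n v hv] at h2 ⊢
      omega
  have := hmin N' hori hce'
  omega

theorem no_CE [Nonempty V] : ¬ ∃ N : V → Finset V, Ori N ∧ CE N := by
  rintro ⟨N0, h0, hc0⟩
  obtain ⟨N, hN, hce, hsz⟩ := Nat.sInf_mem
    (s := {n | ∃ N : V → Finset V, Ori N ∧ CE N ∧ ∑ v, (N v).card = n}) ⟨_, N0, h0, hc0, rfl⟩
  have hmin : ∀ N' : V → Finset V, Ori N' → CE N' → ∑ v, (N v).card ≤ ∑ v, (N' v).card :=
    fun N' h1 h2 => hsz ▸ Nat.sInf_le ⟨N', h1, h2, rfl⟩
  refine no_G hN (fun S hS => G_of_min hN hce hmin S hS) (fun a => ?_)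
  by_contra hcon
  push Not at hcon
  have h1 : N a = {a} := by
    apply Subset.antisymm
    · intro x hx
      exact mem_singleton.2 (hcon x hx)
    · exact singleton_subset_iff.2 (hN.rf a)
  have h2 := hce a
  have h3 : 0 < (NN N (N a)).card := card_pos.2 ⟨a, mem_NN.2 ⟨a, hN.rf a, hN.rf a⟩⟩
  have h4 : (N a).card = 1 := by rw [h1, card_singleton]
  omega

end Vale.Agent.P038.H6
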